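import Vale.Agent.P181.SZN4.Gap

set_option autoImplicit false

/-!
# P181, SZ, N4: the smaller shape
-/

namespace Vale.Agent.P181.SZN4

open Vale.Agent.P181.T4 (HW ex low ex_of_lt ex_anti sum_split)

/-- The smaller shape: `M` columns of the length `r + 2` lose their lower `r + 1` boxes, the
first row is `A - rest`. -/
def nuOf {n : ℕ} (lam : Fin n → ℕ) (M r A : ℕ) : Fin n → ℕ := fun i =>
  if 1 ≤ (i : ℕ) then lam i - (if (i : ℕ) ≤ r + 1 then M else 0)
  else A - ∑ i : Fin n, (if 1 ≤ (i : ℕ) then lam i - (if (i : ℕ) ≤ r + 1 then M else 0) else 0)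

lemma nuOf_pos {n : ℕ} (lam : Fin n → ℕ) (M r A : ℕ) {i : ℕ} (hi : 1 ≤ i) :
    ex (nuOf lam M r A) i = ex lam i - (if i ≤ r + 1 then M else 0) := by
  by_cases h : i < n
  · rw [ex_of_lt _ h, ex_of_lt _ h]
    unfold nuOf
    rw [if_pos hi]
  · unfold ex
    rw [dif_neg h, dif_neg h]
    simp

lemma nuOf_sum {n : ℕ} (hn : 0 < n) (lam : Fin n → ℕ) (M r A : ℕ)
    (hA : ∑ i : Fin n, (if 1 ≤ (i : ℕ) then lam i else 0) ≤ A) :
    ∑ i, nuOf lam M r A i = A := by
  obtain ⟨m, rfl⟩ : ∃ m, n = m + 1 := ⟨n - 1, by omega⟩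
  set rest := ∑ i : Fin (m + 1),
    (if 1 ≤ (i : ℕ) then lam i - (if (i : ℕ) ≤ r + 1 then M else 0) else 0) with hrest
  have hle : rest ≤ A := by
    refine le_trans ?_ hA
    apply Finset.sum_le_sum
    intro i _
    split_ifs <;> omega
  have h1 : ∑ i, nuOf lam M r A i = (A - rest) + rest := by
    have h2 : ∀ i : Fin (m + 1), nuOf lam M r A i = (if (i : ℕ) = 0 then A - rest else 0) +
        (if 1 ≤ (i : ℕ) then lam i - (if (i : ℕ) ≤ r + 1 then M else 0) else 0) := by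
      intro i
      unfold nuOf
      by_cases h : 1 ≤ (i : ℕ)
      · have h' : ¬ (i : ℕ) = 0 := by omega
        simp only [if_pos h, if_neg h', zero_add]
      · have h' : (i : ℕ) = 0 := by omega
        rw [if_neg h, if_neg h, if_pos h', add_zero]
    rw [Finset.sum_congr rfl (fun i _ => h2 i), Finset.sum_add_distrib, ← hrest]
    congr 1
    rw [Fin.sum_univ_succ]
    simp
  omega

lemma nuOf_zero_ge {n : ℕ} (hn : 0 < n) (lam : Fin n → ℕ) (hanti : Antitone lam) (M r A w : ℕ)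
    (hw : w = ∑ i : Fin n, (if 1 ≤ (i : ℕ) then lam i else 0)) (hA : 2 * w ≤ A)
    (hf1 : ex lam 1 ≤ w) (j : ℕ) (hj : 1 ≤ j) :
    ex (nuOf lam M r A) j ≤ ex (nuOf lam M r A) 0 := by
  have h0 : ex (nuOf lam M r A) 0 = A - ∑ i : Fin n,
      (if 1 ≤ (i : ℕ) then lam i - (if (i : ℕ) ≤ r + 1 then M else 0) else 0) := by
    rw [ex_of_lt _ hn]
    rfl
  have h1 : ∑ i : Fin n,
      (if 1 ≤ (i : ℕ) then lam i - (if (i : ℕ) ≤ r + 1 then M else 0) else 0) ≤ w := by
    rw [hw]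
    apply Finset.sum_le_sum
    intro i _
    split_ifs <;> omega
  have h3 : ex (nuOf lam M r A) j ≤ ex lam 1 := by
    rw [nuOf_pos lam M r A hj]
    have := ex_anti hanti hj
    omega
  omega

lemma nuOf_anti1 {n : ℕ} (lam : Fin n → ℕ) (hanti : Antitone lam) (M r A : ℕ)
    (hM : M ≤ ex lam (r + 1) - ex lam (r + 2)) {i j : ℕ} (hi : 1 ≤ i) (hij : i ≤ j) :
    ex (nuOf lam M r A) j ≤ ex (nuOf lam M r A) i := by
  rw [nuOf_pos lam M r A hi, nuOf_pos lam M r A (by omega)]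
  have h1 := ex_anti hanti hij
  by_cases hj : j ≤ r + 1
  · rw [if_pos hj, if_pos (by omega)]; omega
  · rw [if_neg hj]
    by_cases hi' : i ≤ r + 1
    · rw [if_pos hi']
      have h3 : ex lam (r + 1) ≤ ex lam i := ex_anti hanti hi'
      have h4 : ex lam j ≤ ex lam (r + 2) := ex_anti hanti (by omega)
      omega
    · rw [if_neg hi']; omega

lemma nuOf_anti {n : ℕ} (lam : Fin n → ℕ) (hanti : Antitone lam) (M r A w : ℕ)
    (hw : w = ∑ i : Fin n, (if 1 ≤ (i : ℕ) then lam i else 0)) (hA : 2 * w ≤ A)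
    (hf1 : ex lam 1 ≤ w) (hM : M ≤ ex lam (r + 1) - ex lam (r + 2)) :
    Antitone (nuOf lam M r A) := by
  intro i j hij
  have hij' : (i : ℕ) ≤ j := hij
  have hn : 0 < n := lt_of_le_of_lt (Nat.zero_le _) i.2
  have h1 : ex (nuOf lam M r A) j ≤ ex (nuOf lam M r A) i := by
    by_cases hi : 1 ≤ (i : ℕ)
    · exact nuOf_anti1 lam hanti M r A hM hi hij'
    · have hi0 : (i : ℕ) = 0 := by omega
      by_cases hj : 1 ≤ (j : ℕ)
      · rw [hi0]
        exact nuOf_zero_ge hn lam hanti M r A w hw hA hf1 _ hj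
      · have hj0 : (j : ℕ) = 0 := by omega
        rw [hi0, hj0]
  rwa [ex_of_lt _ i.2, ex_of_lt _ j.2] at h1

/-- The shape and its properties. -/
lemma shape {n R M a w A : ℕ} (lam : Fin n → ℕ) (hanti : Antitone lam) (hR3 : 3 ≤ R)
    (hRn : R < n) (hw : w = ∑ i : Fin n, (if 1 ≤ (i : ℕ) then lam i else 0))
    (ht : 100 * (R * ex lam R + ∑ i, low R lam i) ≤ w) (hMa : M ≤ a)
    (ha : 2 * R ^ 2 * a ≤ ex lam 2) (hA : 2 * w ≤ A) :
    ∃ (r : ℕ) (nu : Fin n → ℕ), r + 2 ≤ R ∧ Antitone nu ∧ ∑ i, nu i = A ∧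
      low R nu = low R lam ∧
      (∀ i : Fin n, 1 ≤ (i : ℕ) → nu i + (if (i : ℕ) ≤ r + 1 then M else 0) = lam i) ∧
      ex nu R = ex lam R ∧ ex lam 2 ≤ 2 * ex nu 2 ∧
      (∀ l, 2 ≤ l → l ≤ R →
        (∀ j, 2 ≤ j → j ≤ R → ex nu (j - 1) - ex nu j ≤ ex nu (l - 1) - ex nu l) →
        w ≤ 2 * R ^ 2 * (ex nu (l - 1) - ex nu l)) := by
  have hwsplit : w = ∑ i ∈ Finset.Ico 1 R, ex lam i + ∑ i, low R lam i := by
    rw [hw]; exact below_split (by omega) (by omega) lam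
  have hfw : ∀ i, 1 ≤ i → i < R → ex lam i ≤ w := by
    intro i hi hiR
    have h1 : ex lam i ≤ ∑ i ∈ Finset.Ico 1 R, ex lam i :=
      Finset.single_le_sum (f := ex lam) (fun i _ => Nat.zero_le _)
        (by rw [Finset.mem_Ico]; omega)
    omega
  have hRsq : 3 * R ≤ R ^ 2 := by nlinarith
  have hRa : 6 * (R * a) ≤ w := by
    calc 6 * (R * a) = 2 * (3 * R) * a := by ring
      _ ≤ 2 * R ^ 2 * a := by
          apply Nat.mul_le_mul_right
          omega
      _ ≤ ex lam 2 := ha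
      _ ≤ w := hfw 2 (by omega) (by omega)
  obtain ⟨p, hp, hpmax⟩ := Finset.exists_max_image (Finset.Icc 2 R)
    (fun j => ex lam (j - 1) - ex lam j) ⟨2, by rw [Finset.mem_Icc]; omega⟩
  rw [Finset.mem_Icc] at hp
  have hpw : w ≤ 2 * R ^ 2 * (ex lam (p - 1) - ex lam p) := by
    have h1 := sum_row_le (ex lam) R (ex lam (p - 1) - ex lam p) (fun j hj1 hj2 =>
      hpmax j (by rw [Finset.mem_Icc]; omega))
    have h3 : 2 * R ^ 2 * (ex lam (p - 1) - ex lam p) =
      2 * (R ^ 2 * (ex lam (p - 1) - ex lam p)) := by ring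
    omega
  have hMgap : M ≤ ex lam (p - 1) - ex lam p := by
    have h1 : 2 * R ^ 2 * a ≤ 2 * R ^ 2 * (ex lam (p - 1) - ex lam p) :=
      le_trans ha (le_trans (hfw 2 (by omega) (by omega)) hpw)
    have h3 := Nat.le_of_mul_le_mul_left h1 (by positivity)
    omega
  clear hpmax hpw
  obtain ⟨r, rfl⟩ : ∃ r, p = r + 2 := ⟨p - 2, by omega⟩
  have hr1 : r + 2 - 1 = r + 1 := by omega
  rw [hr1] at hMgap
  have hg : ∀ i, 1 ≤ i → ex (nuOf lam M r A) i = ex lam i - (if i ≤ r + 1 then M else 0) :=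
    fun i hi => nuOf_pos lam M r A hi
  have hgR : ex (nuOf lam M r A) R = ex lam R := by
    rw [hg R (by omega), if_neg (by omega), Nat.sub_zero]
  have hlow : low R (nuOf lam M r A) = low R lam := by
    funext i
    have h1 : low R (nuOf lam M r A) i = ex (nuOf lam M r A) (R + i) := rfl
    have h3 : low R lam i = ex lam (R + i) := rfl
    rw [h1, h3, hg _ (by omega), if_neg (by omega), Nat.sub_zero]
  have hfg : ∀ i, 1 ≤ i → ex lam i ≤ ex (nuOf lam M r A) i + a := by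
    intro i hi
    rw [hg i hi]
    split_ifs <;> omega
  refine ⟨r, nuOf lam M r A, hp.2, nuOf_anti lam hanti M r A w hw hA (hfw 1 le_rfl (by omega))
    hMgap, nuOf_sum (by omega) lam M r A (by omega), hlow, ?_, hgR, ?_, ?_⟩
  · intro i hi
    have h1 := hg i hi
    rw [ex_of_lt _ i.2] at h1
    have h3 : ex lam i = lam i := ex_of_lt _ i.2
    rw [h3] at h1
    by_cases h5 : (i : ℕ) ≤ r + 1
    · have h4 : ex lam (r + 1) ≤ ex lam i := ex_anti hanti h5
      rw [h3] at h4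
      rw [if_pos h5] at h1 ⊢
      have h6 : nuOf lam M r A i = lam i - M := h1
      omega
    · rw [if_neg h5] at h1 ⊢
      have h6 : nuOf lam M r A i = lam i - 0 := h1
      omega
  · have h1 := hfg 2 (by omega)
    have h3 : 2 * a ≤ 2 * R ^ 2 * a := by
      apply Nat.mul_le_mul_right
      omega
    omega
  · intro l hl1 hl2 hlmax
    have h1 := sum_row_le (ex (nuOf lam M r A)) R
      (ex (nuOf lam M r A) (l - 1) - ex (nuOf lam M r A) l) hlmax
    have h2 : ∑ i ∈ Finset.Ico 1 R, ex lam i ≤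
        ∑ i ∈ Finset.Ico 1 R, (ex (nuOf lam M r A) i + a) := by
      apply Finset.sum_le_sum
      intro i hi
      rw [Finset.mem_Ico] at hi
      exact hfg i hi.1
    rw [Finset.sum_add_distrib, Finset.sum_const, Nat.card_Ico, smul_eq_mul] at h2
    have h3 : (R - 1) * a ≤ R * a := Nat.mul_le_mul_right _ (Nat.sub_le _ _)
    have h4 : 2 * R ^ 2 * (ex (nuOf lam M r A) (l - 1) - ex (nuOf lam M r A) l) =
      2 * (R ^ 2 * (ex (nuOf lam M r A) (l - 1) - ex (nuOf lam M r A) l)) := by ring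
    rw [hgR] at h1
    omega

end Vale.Agent.P181.SZN4
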