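import Vale.Agent.P181.SZN4.Arith
import Vale.Agent.P181.SZN4.Shape

set_option autoImplicit false

/-!
# P181, SZ, N4: the choice of the numbers
-/

namespace Vale.Agent.P181.SZN4

open Vale.Agent.P181.T4 (HW ex low ex_of_lt ex_anti sum_split)
open Vale.Agent.P181.H280 (plethMult)
open Vale.Agent.P181.H463 (gt)
open Vale.Agent.P181.SZ (mkc LBC LBR NumS)

/-- The third largest gap class: the maximal gap on `[3, R]`. -/
lemma gap3 {R X Z f2 : ℕ} (g : ℕ → ℕ) (hR3 : 3 ≤ R) (hX3 : 2000 * R ^ 3 ≤ X) (hX6 : 10 ^ 6 ≤ X)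
    (h2 : Z * X ^ 14 ≤ f2) (hf2 : f2 ≤ 2 * g 2) (hgR : 8 * g R ≤ f2) :
    ∃ R1, 3 ≤ R1 ∧ R1 ≤ R ∧ (∀ j, R1 ≤ j → j ≤ R → g (j - 1) - g j ≤ g (R1 - 1) - g R1) ∧
      100 * R ^ 2 * (Z * X ^ 3) ≤ g (R1 - 1) - g R1 := by
  obtain ⟨R1, hR1, hR1max⟩ := Finset.exists_max_image (Finset.Icc 3 R)
    (fun j => g (j - 1) - g j) ⟨3, by rw [Finset.mem_Icc]; omega⟩
  rw [Finset.mem_Icc] at hR1
  refine ⟨R1, hR1.1, hR1.2, fun j hj1 hj2 => hR1max j (by rw [Finset.mem_Icc]; omega), ?_⟩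
  have hsum3 : g 2 ≤ R * (g (R1 - 1) - g R1) + g R := by
    have h1 := row_le (fun i => g (i + 1)) (R - 1) (g (R1 - 1) - g R1)
      (fun j hj1 hj2 => by
        have h3 := hR1max (j + 1) (by rw [Finset.mem_Icc]; omega)
        have h4 : j + 1 - 1 = j - 1 + 1 := by omega
        simp only [h4] at h3
        exact h3) (R - 2) 1 le_rfl (by omega)
    have h5 : R - 1 + 1 = R := by omega
    simp only [h5] at h1
    have h7 : g 2 ≤ (R - 2) * (g (R1 - 1) - g R1) + g R := h1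
    have h6 : (R - 2) * (g (R1 - 1) - g R1) ≤ R * (g (R1 - 1) - g R1) :=
      Nat.mul_le_mul_right _ (Nat.sub_le _ _)
    omega
  have h1 : f2 ≤ 4 * (R * (g (R1 - 1) - g R1)) := by omega
  apply Nat.le_of_mul_le_mul_right _ (show 0 < 4 * R by omega)
  calc 100 * R ^ 2 * (Z * X ^ 3) * (4 * R) = 400 * R ^ 3 * (Z * X ^ 3) := by ring
    _ ≤ X ^ 11 * (Z * X ^ 3) := by
        apply Nat.mul_le_mul_right
        calc 400 * R ^ 3 ≤ X ^ 1 := by rw [pow_one]; omega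
          _ ≤ X ^ 11 := Nat.pow_le_pow_right (by omega) (by norm_num)
    _ = Z * X ^ 14 := by ring
    _ ≤ f2 := h2
    _ ≤ 4 * (R * (g (R1 - 1) - g R1)) := h1
    _ = (g (R1 - 1) - g R1) * (4 * R) := by ring

lemma four_R {R X : ℕ} (hR3 : 3 ≤ R) (hX2 : 100 * R ^ 2 ≤ X) : 2 * (R + 1) ≤ X ^ 3 := by
  have h1 : R ≤ R ^ 2 := by nlinarith
  calc 2 * (R + 1) ≤ X ^ 1 := by rw [pow_one]; omega
    _ ≤ X ^ 3 := Nat.pow_le_pow_right (by omega) (by norm_num)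

/-- The lower bound for the smaller shape. -/
lemma low_bound (hC : LBC) (hR : LBR) {n J R X Z w : ℕ} (nu : Fin n → ℕ)
    (hanti : Antitone nu) (hR3 : 3 ≤ R) (hRn : R < n) (hnJ : n ≤ J) (hZw : Z ^ 2 ≤ w)
    (hwZ : w ≤ 2 * Z ^ 2) (hJ : J ≤ Z * X ^ 2) (hX : 10 ^ 6 * R ^ 4 ≤ X) (hXZ : X ^ 20 ≤ Z)
    (f2 : ℕ) (h2 : Z * X ^ 14 ≤ f2) (hf2 : f2 ≤ 2 * ex nu 2) (hER : 8 * ex nu R ≤ f2)
    (htail : X ^ 6 * (R * ex nu R + ∑ i, low R nu i) ≤ w)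
    (hlog : 100 * (R : ℝ) * Real.log (w + 1) ≤ X)
    (hsum : ∑ i, nu i = 2 * (Z / X ^ 5) * (w / (Z / X ^ 5) + 1))
    (hgap : ∀ l, 2 ≤ l → l ≤ R →
        (∀ j, 2 ≤ j → j ≤ R → ex nu (j - 1) - ex nu j ≤ ex nu (l - 1) - ex nu l) →
        w ≤ 2 * R ^ 2 * (ex nu (l - 1) - ex nu l)) :
    2 * (w + 1) ^ (R * J) * gt (n - R) J (low R nu) ≤
      plethMult (w / (Z / X ^ 5) + 1) (2 * (Z / X ^ 5)) n nu := by
  obtain ⟨hRX, hX2, hXR, hX3, hX6, hXp⟩ := pow_facts hR3 hX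
  obtain ⟨hk1, hk2, hk15, hkZ, hkX, hZX⟩ := k0_facts hX6 hXZ
  generalize Z / X ^ 5 = k at hk1 hk2 hk15 hkZ hkX hsum ⊢
  have hZ1 : 1 ≤ Z := by omega
  have hkpos : 0 < k := by omega
  have hX0 : 0 < X := by omega
  have hZw' : Z ≤ w := by nlinarith
  have hRsq : R ≤ R ^ 2 := by nlinarith
  obtain ⟨l, hl, hlmax⟩ := Finset.exists_max_image (Finset.Icc 2 R)
    (fun j => ex nu (j - 1) - ex nu j) ⟨2, by rw [Finset.mem_Icc]; omega⟩
  rw [Finset.mem_Icc] at hl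
  have hlmax' : ∀ j, 2 ≤ j → j ≤ R → ex nu (j - 1) - ex nu j ≤ ex nu (l - 1) - ex nu l :=
    fun j hj1 hj2 => hlmax j (by rw [Finset.mem_Icc]; omega)
  have hlw := hgap l hl.1 hl.2 hlmax'
  have hg1w : w ≤ 2 * R ^ 2 * ex nu 1 := by
    refine le_trans hlw ?_
    apply Nat.mul_le_mul_left
    have : ex nu (l - 1) ≤ ex nu 1 := ex_anti hanti (by omega)
    omega
  -- the common hypotheses
  have hN1 : J ≤ Z * X ^ 3 := by
    refine le_trans hJ ?_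
    apply Nat.mul_le_mul_left
    exact Nat.pow_le_pow_right (by omega) (by norm_num)
  have hN2 : 20 * (Z * X ^ 3) * (k + 2 * R) ≤ ex nu (l - 1) - ex nu l :=
    gap_big hX2 (by omega) hk1 hX0 hZw hlw
  have hN3 : 2000 * R ^ 3 ≤ k := by omega
  have hN4 : 2 * k * (R + 1) ≤ Z * X ^ 3 := by
    calc 2 * k * (R + 1) = k * (2 * (R + 1)) := by ring
      _ ≤ Z * (2 * (R + 1)) := Nat.mul_le_mul_right _ hkZ
      _ ≤ Z * X ^ 3 := Nat.mul_le_mul_left _ (four_R hR3 hX2)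
  have hN5 : 8 * (R * ex nu R + 2 * (2 * k) * R ^ 2 + ∑ i, low R nu i) ≤ Z * X ^ 3 * k :=
    tail_small hX2 hX6 hk2 hwZ hZ1 htail
  have hN6 : 50 * R * (R + 1) * (Z * X ^ 3) ≤ 2 * (w / k + 1) :=
    b0_big hXR hX6 hk1 hkpos hZw
  have hN7 : 729 * (Z * X ^ 3) < ∏ i ∈ Finset.Ico 1 3,
      (min (ex nu i / (32 * R ^ 2 * (Z * X ^ 3))) (k / (256 * R ^ 2)) + 1) := by
    have h3 : (Finset.Ico 1 3 : Finset ℕ) = {1, 2} := by decide
    rw [h3, Finset.prod_pair (by norm_num)]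
    exact prod_big (by omega) hX6 hXp hk2 hk15 hZw hZ1 hg1w (by omega)
  have hN8 : ((2 * (w + 1) ^ (R * J) : ℕ) : ℝ) *
      (((2 * k * (w / k + 1) : ℕ) : ℝ) + 1) ^ (J * R) * (((2 * k : ℕ) : ℝ) + 1) ^ J ≤
      Real.exp ((Z * X ^ 3 : ℕ) : ℝ) :=
    exp_big (by omega) (by omega) hJ (by omega) (by omega) hlog
  by_cases hl2 : l = 2
  · -- two levels
    subst hl2
    obtain ⟨R1, hR1, hR1R, hR1max, hgap3⟩ := gap3 (ex nu) hR3 hX3 hX6 h2 hf2 hER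
    exact hC (2 * k) (w / k + 1) n J R R1 2 3 k (Z * X ^ 3) (2 * (w + 1) ^ (R * J)) nu hanti
      hsum le_rfl (by omega) hR1 hR1R hRn hnJ hN1 hlmax' hR1max
      hgap3 hN2 hN3 le_rfl hN4 hN5
      (show 2 * ex nu R ≤ ex nu 2 by omega)
      hN6 hN7 hN8
  · -- one level
    exact hR (2 * k) (w / k + 1) n J R l 3 k (Z * X ^ 3) (2 * (w + 1) ^ (R * J)) nu hanti
      hsum le_rfl (by omega) hl.2 hRn hnJ hN1 hN2 hN3 le_rfl hN4 hN5 hN6 hN7 hN8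

/-- `t ≤ Z`. -/
lemma t_le {X Z w a k t f2 : ℕ} (hX6 : 10 ^ 6 ≤ X) (hXa : X * a ≤ f2) (hfw : f2 ≤ w)
    (hwZ : w ≤ 2 * Z ^ 2) (ht : mkc k t ≤ a) : t ≤ Z := by
  have h1 : t * t ≤ a := by
    rw [mkc_eq] at ht
    nlinarith
  have h3 : 2 * a ≤ w := by nlinarith
  by_contra hc
  rw [not_le] at hc
  have h4 : Z * Z < t * t := Nat.mul_self_lt_mul_self hc
  nlinarith

/-- The marked types are leading types. -/
lemma marks {R X Z w a k t r f2 : ℕ} (hX6 : 10 ^ 6 ≤ X) (hX2 : 100 * R ^ 2 ≤ X) (hR3 : 3 ≤ R)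
    (hk1 : k * X ^ 5 ≤ Z) (hkZ : k ≤ Z) (hZ1 : 1 ≤ Z) (hZw : Z ^ 2 ≤ w) (hXa : X * a ≤ f2)
    (hfw : f2 ≤ w) (htZ : t ≤ Z) (hta : mkc k t ≤ a) (hta' : a < mkc k (t + 1))
    (hr : r + 2 ≤ R) (y : ℕ) (hy : y ≤ 2 * k + 2 * t) (s : ℕ)
    (hs : w ≤ (r + 1) * mkc k t + 2 * k * s) : y + a + 2 ≤ mkc k t + s := by
  have h1 : a < mkc k t + (2 * k + 2 * t + 2) := by
    rw [← mkc_succ]
    exact hta'
  have h3 : (r + 1) * mkc k t ≤ R * a := Nat.mul_le_mul (by omega) hta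
  have hRa : 2 * (R * a) ≤ w := by
    calc 2 * (R * a) = 2 * R * a := by ring
      _ ≤ X * a := by
          apply Nat.mul_le_mul_right
          nlinarith
      _ ≤ w := le_trans hXa hfw
  have h4 : w ≤ 4 * k * s := by
    have h6 : 2 * (2 * k * s) = 4 * k * s := by ring
    omega
  have h5 : Z * X ^ 5 ≤ 4 * s := by
    apply Nat.le_of_mul_le_mul_left _ (show 0 < Z by omega)
    calc Z * (Z * X ^ 5) = Z ^ 2 * X ^ 5 := by ring
      _ ≤ w * X ^ 5 := Nat.mul_le_mul_right _ hZw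
      _ ≤ 4 * k * s * X ^ 5 := Nat.mul_le_mul_right _ h4
      _ = 4 * s * (k * X ^ 5) := by ring
      _ ≤ 4 * s * Z := Nat.mul_le_mul_left _ hk1
      _ = Z * (4 * s) := by ring
  have h6 : 44 * Z ≤ Z * X ^ 5 := by
    rw [mul_comm 44 Z]
    apply Nat.mul_le_mul_left
    calc 44 ≤ X ^ 1 := by rw [pow_one]; omega
      _ ≤ X ^ 5 := Nat.pow_le_pow_right (by omega) (by norm_num)
  omega

theorem num_s (hC : LBC) (hR : LBR) : NumS := by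
  intro n J R X Z w a lam hanti hR3 hRn hnJ hw hZw hwZ hJ hX hXZ h2 hXa hZa hER htail hlog
  -- elementary facts
  obtain ⟨hRX, hX2, hXR, hX3, hX6, hXp⟩ := pow_facts hR3 hX
  obtain ⟨hk1, hk2, hk15, hkZ, hkX, hZX⟩ := k0_facts hX6 hXZ
  have hZ1 : 1 ≤ Z := by omega
  have hkpos : 0 < Z / X ^ 5 := by omega
  have hX0 : 0 < X := by omega
  have hRt : 100 * (R * ex lam R + ∑ i, low R lam i) ≤ w := by
    refine le_trans ?_ htail
    apply Nat.mul_le_mul_right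
    calc 100 ≤ X ^ 1 := by rw [pow_one]; omega
      _ ≤ X ^ 6 := Nat.pow_le_pow_right (by omega) (by norm_num)
  have hf2w : ex lam 2 ≤ w := by
    have h1 : ex lam 2 ≤ ∑ i ∈ Finset.Ico 1 R, ex lam i :=
      Finset.single_le_sum (f := ex lam) (fun i _ => Nat.zero_le _)
        (by rw [Finset.mem_Ico]; omega)
    have h3 := below_split (R := R) (by omega) (by omega) lam
    omega
  have hRa : 2 * R ^ 2 * a ≤ ex lam 2 := by
    refine le_trans ?_ hXa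
    apply Nat.mul_le_mul_right
    omega
  -- the mark
  obtain ⟨t, ht2, hta, hta'⟩ := exists_t (x := Z / X ^ 5) (a := a) (by omega) (by
    have h1 : 4 * (Z / X ^ 5) + 6 ≤ Z / X ^ 5 * X ^ 5 := by
      calc 4 * (Z / X ^ 5) + 6 ≤ Z / X ^ 5 * X := by nlinarith
        _ ≤ Z / X ^ 5 * X ^ 5 := by
          apply Nat.mul_le_mul_left
          calc X = X ^ 1 := (pow_one X).symm
            _ ≤ X ^ 5 := Nat.pow_le_pow_right (by omega) (by norm_num)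
    omega)
  have htZ : t ≤ Z := t_le hX6 hXa hf2w hwZ hta
  have hA : 2 * w ≤ 2 * (Z / X ^ 5) * (w / (Z / X ^ 5) + 1) := by
    have h := Nat.div_add_mod w (Z / X ^ 5)
    have h' := Nat.mod_lt w hkpos
    have h3 : 2 * (Z / X ^ 5) * (w / (Z / X ^ 5) + 1) =
      2 * (Z / X ^ 5 * (w / (Z / X ^ 5))) + 2 * (Z / X ^ 5) := by ring
    omega
  obtain ⟨r, nu, hr, hnuanti, hsum, hlow, hnu, hgR, hf2, hgap⟩ :=
    shape lam hanti hR3 hRn hw hRt hta hRa hA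
  have hmain := low_bound hC hR nu hnuanti hR3 hRn hnJ hZw hwZ hJ hX hXZ (ex lam 2) h2 hf2
    (by rw [hgR]; exact hER) (by rw [hgR, hlow]; exact htail) hlog hsum hgap
  refine ⟨r, Z / X ^ 5, t, 2 * (Z / X ^ 5), w / (Z / X ^ 5) + 1, nu, hr, ht2, by omega, by omega,
    hta, hnu, ?_, ?_, ?_⟩
  · intro y hy s hs
    exact marks hX6 hX2 hR3 hk1 hkZ hZ1 hZw hXa hf2w htZ hta hta' hr y hy s hs
  · exact b0_small hX6 hRX (by omega) htZ hk2 hkpos hwZ hZ1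
  · rw [← mul_assoc, ← hlow]
    exact hmain

end Vale.Agent.P181.SZN4
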