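import Mathlib

set_option autoImplicit false

/-!
# P181, SZ, N4: elementary inequalities for the choice of the numbers
-/

namespace Vale.Agent.P181.SZN4

lemma pow_facts {R X : ℕ} (hR : 3 ≤ R) (hX : 10 ^ 6 * R ^ 4 ≤ X) :
    R ≤ X ∧ 100 * R ^ 2 ≤ X ∧ 100 * (R * (R + 1)) ≤ X ∧ 2000 * R ^ 3 ≤ X ∧ 10 ^ 6 ≤ X ∧
      95551488 * R ^ 6 ≤ X ^ 3 := by
  have hR1 : 1 ≤ R := by omega
  have h14 : R ^ 1 ≤ R ^ 4 := Nat.pow_le_pow_right hR1 (by norm_num)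
  have h24 : R ^ 2 ≤ R ^ 4 := Nat.pow_le_pow_right hR1 (by norm_num)
  have h34 : R ^ 3 ≤ R ^ 4 := Nat.pow_le_pow_right hR1 (by norm_num)
  have h04 : R ^ 0 ≤ R ^ 4 := Nat.pow_le_pow_right hR1 (by norm_num)
  rw [pow_one] at h14
  rw [pow_zero] at h04
  have e : R * (R + 1) = R ^ 2 + R := by ring
  refine ⟨by omega, by omega, by rw [e]; omega, by omega, by omega, ?_⟩
  have hX1 : 1 ≤ X := by omega
  have h2 : (10 ^ 6 * R ^ 4) ^ 2 ≤ X ^ 2 := Nat.pow_le_pow_left hX 2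
  have h3 : X ^ 2 ≤ X ^ 3 := Nat.pow_le_pow_right hX1 (by norm_num)
  have h4 : R ^ 6 ≤ R ^ 8 := Nat.pow_le_pow_right hR1 (by norm_num)
  have h5 : (10 ^ 6 * R ^ 4) ^ 2 = 10 ^ 12 * R ^ 8 := by ring
  rw [h5] at h2
  omega

/-- Facts about `k0 = Z / X ^ 5`. -/
lemma k0_facts {X Z : ℕ} (hX : 10 ^ 6 ≤ X) (hZ : X ^ 20 ≤ Z) :
    Z / X ^ 5 * X ^ 5 ≤ Z ∧ Z ≤ 2 * (Z / X ^ 5) * X ^ 5 ∧ X ^ 15 ≤ Z / X ^ 5 ∧
      Z / X ^ 5 ≤ Z ∧ X ≤ Z / X ^ 5 ∧ X ≤ Z := by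
  have hX1 : 1 ≤ X := by omega
  have hp : 0 < X ^ 5 := Nat.pow_pos (by omega)
  have h1 : Z / X ^ 5 * X ^ 5 ≤ Z := Nat.div_mul_le_self _ _
  have h3 : X ^ 15 ≤ Z / X ^ 5 := by
    rw [Nat.le_div_iff_mul_le hp]
    calc X ^ 15 * X ^ 5 = X ^ 20 := by ring
      _ ≤ Z := hZ
  have h15 : X ≤ X ^ 15 := by
    calc X = X ^ 1 := (pow_one X).symm
      _ ≤ X ^ 15 := Nat.pow_le_pow_right hX1 (by norm_num)
  have h20 : X ≤ X ^ 20 := by
    calc X = X ^ 1 := (pow_one X).symm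
      _ ≤ X ^ 20 := Nat.pow_le_pow_right hX1 (by norm_num)
  have h2 : Z < (Z / X ^ 5 + 1) * X ^ 5 := by
    have h := Nat.div_add_mod Z (X ^ 5)
    have h' := Nat.mod_lt Z hp
    calc Z = X ^ 5 * (Z / X ^ 5) + Z % X ^ 5 := h.symm
      _ < X ^ 5 * (Z / X ^ 5) + X ^ 5 := by omega
      _ = (Z / X ^ 5 + 1) * X ^ 5 := by ring
  refine ⟨h1, ?_, h3, Nat.div_le_self _ _, by omega, by omega⟩
  have : (Z / X ^ 5 + 1) * X ^ 5 ≤ 2 * (Z / X ^ 5) * X ^ 5 := by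
    apply Nat.mul_le_mul_right
    omega
  omega

/-- The gap is large compared with `N (k0 + 2 R)`. -/
lemma gap_big {R X Z w k G : ℕ} (hX1 : 100 * R ^ 2 ≤ X) (hRk : 2 * R ≤ k) (hk : k * X ^ 5 ≤ Z)
    (hX0 : 0 < X) (hw : Z ^ 2 ≤ w) (hG : w ≤ 2 * R ^ 2 * G) :
    20 * (Z * X ^ 3) * (k + 2 * R) ≤ G := by
  have hXX : 0 < X ^ 2 := Nat.pow_pos hX0
  apply Nat.le_of_mul_le_mul_right _ hXX
  have h1 : X ≤ X ^ 2 := by nlinarith
  calc 20 * (Z * X ^ 3) * (k + 2 * R) * X ^ 2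
      ≤ 20 * (Z * X ^ 3) * (k + k) * X ^ 2 := by gcongr
    _ = 40 * Z * (k * X ^ 5) := by ring
    _ ≤ 40 * Z * Z := by gcongr
    _ = 40 * Z ^ 2 := by ring
    _ ≤ 40 * (2 * R ^ 2 * G) := by
        apply Nat.mul_le_mul_left
        omega
    _ = G * (80 * R ^ 2) := by ring
    _ ≤ G * X ^ 2 := by
        apply Nat.mul_le_mul_left
        omega

/-- The tail is small. -/
lemma tail_small {R X Z w k E S : ℕ} (hX1 : 100 * R ^ 2 ≤ X) (hX0 : 10 ^ 6 ≤ X)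
    (hk : Z ≤ 2 * k * X ^ 5) (hw : w ≤ 2 * Z ^ 2) (hZ : 1 ≤ Z)
    (ht : X ^ 6 * (R * E + S) ≤ w) :
    8 * (R * E + 2 * (2 * k) * R ^ 2 + S) ≤ Z * X ^ 3 * k := by
  have hXX : 0 < X ^ 6 := Nat.pow_pos (by omega)
  -- the tail
  have h1 : 16 * (R * E + S) ≤ Z * X ^ 3 * k := by
    apply Nat.le_of_mul_le_mul_right _ hXX
    calc 16 * (R * E + S) * X ^ 6 = 16 * (X ^ 6 * (R * E + S)) := by ring
      _ ≤ 16 * (2 * Z ^ 2) := by
          apply Nat.mul_le_mul_left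
          omega
      _ = 32 * (Z * Z) := by ring
      _ ≤ 32 * (Z * (2 * k * X ^ 5)) := by gcongr
      _ = 64 * (Z * k * X ^ 5) := by ring
      _ ≤ X ^ 4 * (Z * k * X ^ 5) := by
          apply Nat.mul_le_mul_right
          calc 64 ≤ X ^ 1 := by rw [pow_one]; omega
            _ ≤ X ^ 4 := Nat.pow_le_pow_right (by omega) (by norm_num)
      _ = Z * X ^ 3 * k * X ^ 6 := by ring
  have h2 : 64 * k * R ^ 2 ≤ Z * X ^ 3 * k := by
    calc 64 * k * R ^ 2 = k * (64 * R ^ 2) := by ring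
      _ ≤ k * X := by
          apply Nat.mul_le_mul_left
          omega
      _ ≤ k * (Z * X ^ 3) := by
          apply Nat.mul_le_mul_left
          calc X = X ^ 1 := (pow_one X).symm
            _ ≤ X ^ 3 := Nat.pow_le_pow_right (by omega) (by norm_num)
            _ = 1 * X ^ 3 := (one_mul _).symm
            _ ≤ Z * X ^ 3 := by gcongr
      _ = Z * X ^ 3 * k := by ring
  have h3 : 8 * (R * E + 2 * (2 * k) * R ^ 2 + S) = 8 * (R * E + S) + 32 * k * R ^ 2 := by ring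
  have h4 : 32 * k * R ^ 2 * 2 = 64 * k * R ^ 2 := by ring
  omega

/-- `b0 = w / k + 1` is large. -/
lemma b0_big {R X Z w k : ℕ} (hX1 : 100 * (R * (R + 1)) ≤ X) (hX0 : 10 ^ 6 ≤ X)
    (hk : k * X ^ 5 ≤ Z) (hk0 : 0 < k) (hw : Z ^ 2 ≤ w) :
    50 * R * (R + 1) * (Z * X ^ 3) ≤ 2 * (w / k + 1) := by
  have hXX : 0 < X ^ 2 * k := Nat.mul_pos (Nat.pow_pos (by omega)) hk0
  apply Nat.le_of_mul_le_mul_right _ hXX
  have h0 : w ≤ (w / k + 1) * k := by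
    have h := Nat.div_add_mod w k
    have h' := Nat.mod_lt w hk0
    calc w = k * (w / k) + w % k := h.symm
      _ ≤ k * (w / k) + k := by omega
      _ = (w / k + 1) * k := by ring
  calc 50 * R * (R + 1) * (Z * X ^ 3) * (X ^ 2 * k)
      = 50 * (R * (R + 1)) * Z * (k * X ^ 5) := by ring
    _ ≤ 50 * (R * (R + 1)) * Z * Z := by gcongr
    _ = 50 * (R * (R + 1)) * Z ^ 2 := by ring
    _ ≤ X ^ 2 * Z ^ 2 := by
        apply Nat.mul_le_mul_right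
        calc 50 * (R * (R + 1)) ≤ X ^ 1 := by rw [pow_one]; omega
          _ ≤ X ^ 2 := Nat.pow_le_pow_right (by omega) (by norm_num)
    _ ≤ X ^ 2 * (2 * ((w / k + 1) * k)) := by
        apply Nat.mul_le_mul_left
        omega
    _ = 2 * (w / k + 1) * (X ^ 2 * k) := by ring

/-- `b0` is not too large. -/
lemma b0_small {R X Z w k r t : ℕ} (hX0 : 10 ^ 6 ≤ X) (hRX : R ≤ X) (hrR : r ≤ R) (htZ : t ≤ Z)
    (hk : Z ≤ 2 * k * X ^ 5) (hk0 : 0 < k) (hw : w ≤ 2 * Z ^ 2) (hZ : 1 ≤ Z) :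
    w / k + 1 + 1 + r * t ≤ Z * X ^ 8 := by
  have h1 : w / k ≤ 4 * (Z * X ^ 5) := by
    rw [Nat.div_le_iff_le_mul_add_pred hk0]
    have : w ≤ 4 * (Z * X ^ 5) * k := by
      calc w ≤ 2 * Z ^ 2 := hw
        _ = 2 * Z * Z := by ring
        _ ≤ 2 * Z * (2 * k * X ^ 5) := by gcongr
        _ = 4 * (Z * X ^ 5) * k := by ring
    have h2 : 4 * (Z * X ^ 5) * k = k * (4 * (Z * X ^ 5)) := by ring
    omega
  have h2 : r * t ≤ X * Z := Nat.mul_le_mul (by omega) htZ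
  have hX1 : 1 ≤ X := by omega
  have h3 : X * Z ≤ Z * X ^ 5 := by
    rw [mul_comm]
    apply Nat.mul_le_mul_left
    calc X = X ^ 1 := (pow_one X).symm
      _ ≤ X ^ 5 := Nat.pow_le_pow_right hX1 (by norm_num)
  have h4 : 7 * (Z * X ^ 5) ≤ Z * X ^ 8 := by
    calc 7 * (Z * X ^ 5) = Z * X ^ 5 * 7 := by ring
      _ ≤ Z * X ^ 5 * X ^ 3 := by
          apply Nat.mul_le_mul_left
          calc 7 ≤ X ^ 1 := by rw [pow_one]; omega
            _ ≤ X ^ 3 := Nat.pow_le_pow_right hX1 (by norm_num)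
      _ = Z * X ^ 8 := by ring
  have h5 : 1 ≤ Z * X ^ 5 := Nat.mul_pos hZ (Nat.pow_pos hX1)
  omega

/-- The product over the rows `1`, `2`. -/
lemma prod_big {R X Z w k f1 f2 : ℕ} (hR : 1 ≤ R) (hX0 : 10 ^ 6 ≤ X)
    (hX6 : 95551488 * R ^ 6 ≤ X ^ 3)
    (hk : Z ≤ 2 * k * X ^ 5) (hk15 : X ^ 15 ≤ k) (hw : Z ^ 2 ≤ w) (hZ : 1 ≤ Z)
    (h1 : w ≤ 2 * R ^ 2 * f1) (h2 : Z * X ^ 14 ≤ 2 * f2) :
    729 * (Z * X ^ 3) < (min (f1 / (32 * R ^ 2 * (Z * X ^ 3))) (k / (256 * R ^ 2)) + 1) *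
      (min (f2 / (32 * R ^ 2 * (Z * X ^ 3))) (k / (256 * R ^ 2)) + 1) := by
  have hX1 : 1 ≤ X := by omega
  have hd : 0 < 32 * R ^ 2 * (Z * X ^ 3) := by positivity
  have hd' : 0 < 256 * R ^ 2 := by positivity
  have key : ∀ f d : ℕ, 0 < d → f < (f / d + 1) * d := by
    intro f d hd
    have h := Nat.div_add_mod f d
    have h' := Nat.mod_lt f hd
    calc f = d * (f / d) + f % d := h.symm
      _ < d * (f / d) + d := by omega
      _ = (f / d + 1) * d := by ring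
  set A := min (f1 / (32 * R ^ 2 * (Z * X ^ 3))) (k / (256 * R ^ 2)) + 1 with hA
  set B := min (f2 / (32 * R ^ 2 * (Z * X ^ 3))) (k / (256 * R ^ 2)) + 1 with hB
  have hAb : Z < A * (512 * R ^ 4 * X ^ 5) := by
    rcases min_choice (f1 / (32 * R ^ 2 * (Z * X ^ 3))) (k / (256 * R ^ 2)) with h | h
    · rw [h] at hA
      have h3 := key f1 _ hd
      rw [← hA] at h3
      apply Nat.lt_of_mul_lt_mul_right (a := Z)
      calc Z * Z = Z ^ 2 := by ring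
        _ ≤ 2 * R ^ 2 * f1 := by omega
        _ < 2 * R ^ 2 * (A * (32 * R ^ 2 * (Z * X ^ 3))) := by gcongr
        _ = A * (64 * R ^ 4 * X ^ 3) * Z := by ring
        _ ≤ A * (512 * R ^ 4 * X ^ 5) * Z := by
            gcongr
            · norm_num
            · norm_num
    · rw [h] at hA
      have h3 := key k _ hd'
      rw [← hA] at h3
      calc Z ≤ 2 * k * X ^ 5 := hk
        _ < 2 * (A * (256 * R ^ 2)) * X ^ 5 := by gcongr
        _ = A * (512 * R ^ 2 * X ^ 5) := by ring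
        _ ≤ A * (512 * R ^ 4 * X ^ 5) := by
            gcongr
            norm_num
  have hBb : X ^ 11 < B * (256 * R ^ 2) := by
    rcases min_choice (f2 / (32 * R ^ 2 * (Z * X ^ 3))) (k / (256 * R ^ 2)) with h | h
    · rw [h] at hB
      have h3 := key f2 _ hd
      rw [← hB] at h3
      apply Nat.lt_of_mul_lt_mul_right (a := Z * X ^ 3)
      calc X ^ 11 * (Z * X ^ 3) = Z * X ^ 14 := by ring
        _ ≤ 2 * f2 := h2
        _ < 2 * (B * (32 * R ^ 2 * (Z * X ^ 3))) := by gcongr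
        _ = B * (64 * R ^ 2) * (Z * X ^ 3) := by ring
        _ ≤ B * (256 * R ^ 2) * (Z * X ^ 3) := by
            gcongr
            norm_num
    · rw [h] at hB
      have h3 := key k _ hd'
      rw [← hB] at h3
      calc X ^ 11 ≤ X ^ 15 := Nat.pow_le_pow_right hX1 (by norm_num)
        _ ≤ k := hk15
        _ < B * (256 * R ^ 2) := h3
  apply Nat.lt_of_mul_lt_mul_right (a := 131072 * R ^ 6 * X ^ 5)
  calc 729 * (Z * X ^ 3) * (131072 * R ^ 6 * X ^ 5)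
      = 95551488 * R ^ 6 * (Z * X ^ 8) := by ring
    _ ≤ X ^ 3 * (Z * X ^ 8) := by gcongr
    _ = Z * X ^ 11 := by ring
    _ < (A * (512 * R ^ 4 * X ^ 5)) * (B * (256 * R ^ 2)) :=
        Nat.mul_lt_mul_of_lt_of_lt hAb hBb
    _ = A * B * (131072 * R ^ 6 * X ^ 5) := by ring

/-- The logarithmic inequality. -/
lemma exp_big {R X Z w k J : ℕ} (hR : 1 ≤ R) (hJ1 : 1 ≤ J)
    (hJ : J ≤ Z * X ^ 2) (hkw : k ≤ w) (hw2 : 2 ≤ w)
    (hlog : 100 * (R : ℝ) * Real.log (w + 1) ≤ X) :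
    ((2 * (w + 1) ^ (R * J) : ℕ) : ℝ) * (((2 * k * (w / k + 1) : ℕ) : ℝ) + 1) ^ (J * R) *
      (((2 * k : ℕ) : ℝ) + 1) ^ J ≤ Real.exp ((Z * X ^ 3 : ℕ) : ℝ) := by
  have hA : 2 * k * (w / k + 1) + 1 ≤ (w + 1) ^ 2 := by
    have h := Nat.div_mul_le_self w k
    nlinarith
  have hB : 2 * k + 1 ≤ (w + 1) ^ 2 := by nlinarith
  have hT : 2 ≤ w + 1 := by omega
  have h1 : 2 * (w + 1) ^ (R * J) * (2 * k * (w / k + 1) + 1) ^ (J * R) * (2 * k + 1) ^ J ≤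
      (w + 1) ^ (6 * (R * J)) := by
    calc 2 * (w + 1) ^ (R * J) * (2 * k * (w / k + 1) + 1) ^ (J * R) * (2 * k + 1) ^ J
        ≤ (w + 1) ^ 1 * (w + 1) ^ (R * J) * ((w + 1) ^ 2) ^ (J * R) * ((w + 1) ^ 2) ^ J := by
          gcongr
          rw [pow_one]
          exact hT
      _ = (w + 1) ^ (1 + R * J + 2 * (J * R) + 2 * J) := by
          rw [← pow_mul, ← pow_mul, ← pow_add, ← pow_add, ← pow_add]
      _ ≤ (w + 1) ^ (6 * (R * J)) := by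
          apply Nat.pow_le_pow_right (by omega)
          have h2 : 1 ≤ R * J := Nat.mul_pos hR hJ1
          have h3 : J ≤ R * J := by nlinarith
          have h4 : J * R = R * J := mul_comm _ _
          omega
  have h2 : ((2 * (w + 1) ^ (R * J) : ℕ) : ℝ) * (((2 * k * (w / k + 1) : ℕ) : ℝ) + 1) ^ (J * R) *
      (((2 * k : ℕ) : ℝ) + 1) ^ J =
      ((2 * (w + 1) ^ (R * J) * (2 * k * (w / k + 1) + 1) ^ (J * R) * (2 * k + 1) ^ J : ℕ) : ℝ) := by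
    push_cast
    ring
  rw [h2]
  have hwp : (0 : ℝ) < (w : ℝ) + 1 := by positivity
  have h3 : (((w + 1) ^ (6 * (R * J)) : ℕ) : ℝ) =
      Real.exp ((6 * (R * J) : ℕ) * Real.log (w + 1)) := by
    rw [Real.exp_nat_mul, Real.exp_log hwp]
    push_cast
    ring
  calc ((2 * (w + 1) ^ (R * J) * (2 * k * (w / k + 1) + 1) ^ (J * R) * (2 * k + 1) ^ J : ℕ) : ℝ)
      ≤ (((w + 1) ^ (6 * (R * J)) : ℕ) : ℝ) := by exact_mod_cast h1
    _ = Real.exp ((6 * (R * J) : ℕ) * Real.log (w + 1)) := h3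
    _ ≤ Real.exp ((Z * X ^ 3 : ℕ) : ℝ) := by
        apply Real.exp_le_exp.2
        have hl : 0 ≤ Real.log ((w : ℝ) + 1) := Real.log_nonneg (by
          have : (0 : ℝ) ≤ w := Nat.cast_nonneg w
          linarith)
        have h5 : ((6 * (R * J) : ℕ) : ℝ) * Real.log (w + 1) ≤ J * X := by
          push_cast
          have hJr : (0 : ℝ) ≤ J := Nat.cast_nonneg J
          have hRr : (0 : ℝ) ≤ R := Nat.cast_nonneg R
          nlinarith [mul_nonneg hJr (mul_nonneg hRr hl), mul_le_mul_of_nonneg_left hlog hJr]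
        have h6 : J * X ≤ Z * X ^ 3 := by
          calc J * X ≤ Z * X ^ 2 * X := Nat.mul_le_mul_right _ hJ
            _ = Z * X ^ 3 := by ring
        calc ((6 * (R * J) : ℕ) : ℝ) * Real.log (w + 1) ≤ J * X := h5
          _ ≤ ((Z * X ^ 3 : ℕ) : ℝ) := by exact_mod_cast h6

end Vale.Agent.P181.SZN4
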