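import Vale.Agent.P181.SZ.Spec2

set_option autoImplicit false

/-!
# P181, SZ, N4: gaps, marks
-/

namespace Vale.Agent.P181.SZN4

open Vale.Agent.P181.T4 (HW ex low ex_of_lt ex_anti sum_split)
open Vale.Agent.P181.SZ (mkc)

/-- If all gaps are at most `M`, the rows are small. -/
lemma row_le (f : ℕ → ℕ) (R M : ℕ)
    (hM : ∀ j, 2 ≤ j → j ≤ R → f (j - 1) - f j ≤ M) :
    ∀ d i, 1 ≤ i → i + d = R → f i ≤ d * M + f R := by
  intro d
  induction d with
  | zero =>
    intro i _ h
    have : i = R := by omega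
    subst this
    omega
  | succ d ih =>
    intro i hi h
    have h1 := ih (i + 1) (by omega) (by omega)
    have h2 := hM (i + 1) (by omega) (by omega)
    have h3 : i + 1 - 1 = i := by omega
    rw [h3] at h2
    have h4 : (d + 1) * M = d * M + M := by ring
    omega

lemma sum_row_le (f : ℕ → ℕ) (R M : ℕ)
    (hM : ∀ j, 2 ≤ j → j ≤ R → f (j - 1) - f j ≤ M) :
    ∑ i ∈ Finset.Ico 1 R, f i ≤ R ^ 2 * M + R * f R := by
  calc ∑ i ∈ Finset.Ico 1 R, f i ≤ ∑ _i ∈ Finset.Ico 1 R, (R * M + f R) := by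
        apply Finset.sum_le_sum
        intro i hi
        rw [Finset.mem_Ico] at hi
        have h1 := row_le f R M hM (R - i) i hi.1 (by omega)
        have h2 : (R - i) * M ≤ R * M := Nat.mul_le_mul_right _ (Nat.sub_le _ _)
        omega
    _ = (R - 1) * (R * M + f R) := by
        rw [Finset.sum_const, Nat.card_Ico, smul_eq_mul]
    _ ≤ R * (R * M + f R) := Nat.mul_le_mul_right _ (Nat.sub_le _ _)
    _ = R ^ 2 * M + R * f R := by ring

/-- The sum of the rows below the first one. -/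
lemma below_split {n R : ℕ} (hR1 : 1 ≤ R) (hR : R ≤ n) (lam : Fin n → ℕ) :
    (∑ i : Fin n, (if 1 ≤ (i : ℕ) then lam i else 0)) =
      ∑ i ∈ Finset.Ico 1 R, ex lam i + ∑ i, low R lam i := by
  set f : Fin n → ℕ := fun i => if 1 ≤ (i : ℕ) then lam i else 0 with hf
  have hex : ∀ i, ex f i = if 1 ≤ i then ex lam i else 0 := by
    intro i
    unfold ex
    by_cases h : i < n
    · rw [dif_pos h, dif_pos h]
    · rw [dif_neg h, dif_neg h]
      simp
  have hlow : low R f = low R lam := by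
    funext i
    have h1 : low R f i = ex f (R + i) := rfl
    have h2 : low R lam i = ex lam (R + i) := rfl
    rw [h1, h2, hex, if_pos (by omega)]
  rw [sum_split hR f, hlow, Finset.range_eq_Ico, Finset.sum_eq_sum_Ico_succ_bot (by omega)]
  have h0 : ex f 0 = 0 := by rw [hex, if_neg (by omega)]
  rw [h0, zero_add]
  congr 1
  apply Finset.sum_congr rfl
  intro i hi
  rw [Finset.mem_Ico] at hi
  rw [hex, if_pos (by omega)]

/-- The closed form of the size of the big mark. -/
lemma mkc_eq (x t : ℕ) : mkc x t = t * (2 * x + t + 1) := by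
  unfold mkc
  induction t with
  | zero => simp
  | succ t ih =>
    rw [Finset.sum_range_succ, ih]
    ring

lemma mkc_succ (x t : ℕ) : mkc x (t + 1) = mkc x t + (2 * x + 2 * t + 2) := by
  unfold mkc
  rw [Finset.sum_range_succ]

/-- The number of marks. -/
lemma exists_t {x a : ℕ} (hx : 1 ≤ x) (ha : 4 * x + 6 ≤ a) :
    ∃ t, 2 ≤ t ∧ mkc x t ≤ a ∧ a < mkc x (t + 1) := by
  have h2 : mkc x 2 ≤ a := by
    rw [mkc_eq]
    omega
  set t := Nat.findGreatest (fun t => mkc x t ≤ a) a with ht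
  have h3 : mkc x t ≤ a := Nat.findGreatest_spec (P := fun t => mkc x t ≤ a) (by omega) h2
  have h4 : 2 ≤ t := Nat.le_findGreatest (P := fun t => mkc x t ≤ a) (by omega) h2
  refine ⟨t, h4, h3, ?_⟩
  by_contra hc
  rw [not_lt] at hc
  have h5 : t + 1 ≤ a := by
    have h6 : t + 1 ≤ mkc x (t + 1) := by
      rw [mkc_eq]
      nlinarith
    omega
  have h7 : t + 1 ≤ t := Nat.le_findGreatest (P := fun t => mkc x t ≤ a) h5 hc
  omega

end Vale.Agent.P181.SZN4
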